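import Vale.Agent.P301.H794.Fam
import Vale.Agent.P301.H599.Final
import Mathlib.Analysis.SpecialFunctions.Log.ERealExp

/-! P301: exponential integrability of the weights with vanishing Lelong numbers. -/

open scoped Manifold ContDiff ComplexOrder Topology ENNReal
open Filter Metric Set MeasureTheory

set_option linter.all false

noncomputable section

namespace Vale.Agent.P301.R2.H169

open Vale.Agent.P272.K Vale.Agent.P301.H599 Vale.Agent.P301.H794

lemma exp_LS_le {Y : Type} [TopologicalSpace Y] {g : ℕ → Y → ℝ} {x : Y} {m : ℝ} (hm : 0 < m) :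
    EReal.exp (-((m : EReal) * LS g x)) ≤
      liminf (fun k => ENNReal.ofReal (Real.exp (-(m * g k x)))) atTop := by
  have key : ∀ s : ℝ, LS g x < (s : EReal) → ENNReal.ofReal (Real.exp (-(m * s))) ≤
      liminf (fun k => ENNReal.ofReal (Real.exp (-(m * g k x)))) atTop := by
    intro s hs
    have h1 := LS_lt' hs
    have h2 : Tendsto (fun k : ℕ => (k, x)) atTop (atTop ×ˢ 𝓝 x) :=
      tendsto_id.prodMk tendsto_const_nhds
    have h3 := h2.eventually h1
    refine le_liminf_of_le (by isBoundedDefault) ?_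
    filter_upwards [h3] with k hk
    refine ENNReal.ofReal_le_ofReal (Real.exp_le_exp.2 ?_)
    have h4 : g k x < s := hk
    nlinarith
  set ℓ := liminf (fun k => ENNReal.ofReal (Real.exp (-(m * g k x)))) atTop with hℓ
  induction hx : LS g x using EReal.rec with
  | bot =>
    rw [EReal.coe_mul_bot_of_pos hm, EReal.neg_bot, EReal.exp_top, top_le_iff]
    refine ENNReal.eq_top_of_forall_nnreal_le fun r => ?_
    have h1 := key (-(r : ℝ) / m) (by rw [hx]; exact EReal.bot_lt_coe _)
    refine le_trans ?_ h1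
    have h2 : -(m * (-(r : ℝ) / m)) = r := by field_simp
    rw [h2, ← ENNReal.ofReal_coe_nnreal]
    exact ENNReal.ofReal_le_ofReal (by linarith [Real.add_one_le_exp (r : ℝ)])
  | coe r =>
    have h1 : ∀ s : ℝ, r < s → ENNReal.ofReal (Real.exp (-(m * s))) ≤ ℓ := fun s hs =>
      key s (by rw [hx]; exact_mod_cast hs)
    have hc : Continuous (fun s : ℝ => ENNReal.ofReal (Real.exp (-(m * s)))) :=
      ENNReal.continuous_ofReal.comp (by fun_prop)
    have h2 : Tendsto (fun s : ℝ => ENNReal.ofReal (Real.exp (-(m * s)))) (𝓝[>] r)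
        (𝓝 (ENNReal.ofReal (Real.exp (-(m * r))))) := (hc.tendsto r).mono_left nhdsWithin_le_nhds
    have h3 : ENNReal.ofReal (Real.exp (-(m * r))) ≤ ℓ := by
      refine le_of_tendsto h2 ?_
      filter_upwards [self_mem_nhdsWithin] with s hs using h1 s hs
    rw [← EReal.coe_mul, ← EReal.coe_neg, EReal.exp_coe]
    exact h3
  | top =>
    rw [EReal.coe_mul_top_of_pos hm, EReal.neg_top, EReal.exp_bot]
    exact bot_le

variable {d : ℕ} {X : Type} [TopologicalSpace X] [ChartedSpace (Cm d) X]
  [IsManifold 𝓘(ℂ, Cm d) ω X] [CompactSpace X] [T2Space X] [PreconnectedSpace X] {ι : Type}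
  {F : Auto d X} {w : Fm d X} {L : LineBundle d X ι} {ρ : ι → X → ℝ} {c : ℝ} {u h : X → ℝ}

theorem exp_int (D : Dat F w L ρ c u h) {m : ℝ} (hm : 0 < m) (i : ι) {e : Chart d X}
    (he : e ∈ atlas (Cm d) X) {K : Set (Cm d)} (hK : IsCompact K)
    (hKe : K ⊆ e.target ∩ e.symm ⁻¹' L.U i) :
    ∫⁻ z in K, EReal.exp (-((m : EReal) * psi F ρ c u h i (e.symm z))) < ⊤ := by
  have hKt : K ⊆ e.target := hKe.trans inter_subset_left
  have hAt : ∀ z ∈ K, At e (e.symm z) := fun z hz => At.of_target he (hKt hz)
  set b : X → ℝ := fun x => ρ i x + u x / c with hb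
  have hbat : ∀ z ∈ K, ContinuousAt b (e.symm z) := fun z hz =>
    (rho_contAt D.metric (hAt z hz) (hKe hz).2).add
      ((Smooth.cont D.su).continuousAt.div_const c)
  have hbc : ContinuousOn (fun z => b (e.symm z)) K := fun z hz =>
    (ContinuousAt.comp (f := e.symm) (hbat z hz)
      ((e.continuousOn_symm z (hKt hz)).continuousAt
        (e.open_target.mem_nhds (hKt hz)))).continuousWithinAt
  have hUc : ∀ k, Continuous (UU F h c k) := fun k =>
    continuous_const.mul ((Smooth.cont (smooth_S3 F.contMDiff D.sh k)).div_const _)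
  obtain ⟨C, hC⟩ := hK.exists_bound_of_continuousOn hbc
  obtain ⟨B, hB, hBk⟩ := Dat_exp_bound D (f := fun _ => 0) (Smooth.const 0) hm.le he hK hKt
  set f : ℕ → Cm d → ℝ≥0∞ := fun k z =>
    ENNReal.ofReal (Real.exp (-(m * (UU F h c k (e.symm z) + b (e.symm z))))) with hf
  have hfm : ∀ k, AEMeasurable (f k) (volume.restrict K) := by
    intro k
    have h1 : ContinuousOn (fun z => Real.exp (-(m * (UU F h c k (e.symm z) + b (e.symm z))))) K :=
      Real.continuous_exp.comp_continuousOn (ContinuousOn.neg (continuousOn_const.mul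
        (((hUc k).comp_continuousOn (e.continuousOn_symm.mono hKt)).add hbc)))
    exact (ENNReal.continuous_ofReal.comp_continuousOn h1).aemeasurable hK.measurableSet
  have h1 : ∫⁻ z in K, EReal.exp (-((m : EReal) * psi F ρ c u h i (e.symm z))) ≤
      ∫⁻ z in K, liminf (fun k => f k z) atTop := by
    refine setLIntegral_mono' hK.measurableSet fun z hz => ?_
    have h2 : psi F ρ c u h i (e.symm z) = LS (fun k y => UU F h c k y + b y) (e.symm z) :=
      (LS_add (hbat z hz)).symm
    rw [h2]
    exact exp_LS_le (g := fun k y => UU F h c k y + b y) hm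
  have h3 : ∀ k, 1 ≤ k → ∫⁻ z in K, f k z ≤ ENNReal.ofReal (Real.exp (m * C)) * B := by
    intro k hk
    have h4 : ∫⁻ z in K, f k z ≤ ∫⁻ z in K, ENNReal.ofReal (Real.exp (m * C)) *
        ENNReal.ofReal (Real.exp (-(m * (UU F h c k (e.symm z) + 0)))) := by
      refine setLIntegral_mono' hK.measurableSet fun z hz => ?_
      rw [hf, ← ENNReal.ofReal_mul (Real.exp_pos _).le, ← Real.exp_add]
      refine ENNReal.ofReal_le_ofReal (Real.exp_le_exp.2 ?_)
      have h5 := hC z hz
      rw [Real.norm_eq_abs] at h5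
      have h6 := (abs_le.1 h5).1
      nlinarith
    refine h4.trans ?_
    rw [lintegral_const_mul' _ _ ENNReal.ofReal_ne_top]
    exact mul_le_mul_right (hBk k hk) _
  refine lt_of_le_of_lt (h1.trans ((lintegral_liminf_le' hfm).trans ?_))
    (ENNReal.mul_lt_top ENNReal.ofReal_lt_top (lt_top_iff_ne_top.2 hB) :
      ENNReal.ofReal (Real.exp (m * C)) * B < ⊤)
  refine (liminf_le_limsup (by isBoundedDefault) (by isBoundedDefault)).trans ?_
  refine limsup_le_of_le (by isBoundedDefault) ?_
  filter_upwards [eventually_ge_atTop 1] with k hk using h3 k hk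

end Vale.Agent.P301.R2.H169
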