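import Vale.Agent.P301.R2.H169.ExpInt

/-! P301: the metric with vanishing Lelong numbers, with exponential integrability. -/

open scoped Manifold ContDiff ComplexOrder Topology ENNReal
open Filter Metric Set MeasureTheory

set_option linter.all false

noncomputable section

namespace Vale.Agent.P301.R2.H169

open Vale.Agent.P272.K Vale.Agent.P301.H599 Vale.Agent.P301.H794

theorem main (d : ℕ) (X : Type) [TopologicalSpace X] [T2Space X] [CompactSpace X]
    [ConnectedSpace X] [ChartedSpace (Cm d) X] [IsManifold 𝓘(ℂ, Cm d) ω X]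
    (w s : Chart d X → Cm d → Matrix (Fin d) (Fin d) ℂ) (hs : IsSymplectic d X w s)
    (ι : Type) (L : LineBundle d X ι) (ρ : ι → X → ℝ) (hρ : IsMetric L ρ)
    (F : Auto d X) (c : ℝ) (hc : 0 < c) (hθ : SameClass (pull F (curvature L ρ)) (curvature L ρ))
    (hdd : SameClass (fun e z => pull F (pull F w) e z - (2 : ℂ) • pull F w e z + w e z)
      (fun e z => (c : ℂ) • curvature L ρ e z)) :
    ∃ ψ : ι → X → EReal, IsPshMetric L ψ ∧
      (∀ i (e : Chart d X) x, At e x → x ∈ L.U i → lelong (fun z => ψ i (e.symm z)) (e x) = 0) ∧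
      (∀ (m : ℝ) i (e : Chart d X) (K : Set (Cm d)), 0 < m → e ∈ atlas (Cm d) X → IsCompact K →
        K ⊆ e.target ∩ e.symm ⁻¹' L.U i →
        ∫⁻ z in K, EReal.exp (-((m : EReal) * ψ i (e.symm z))) < ⊤) ∧
      (∀ K : Set X, IsClosed K → K.Nonempty → (∀ x ∈ K, F x ∈ K) →
        ∃ i, ∃ x ∈ K ∩ L.U i, ψ i x ≠ ⊥) ∧
      ∀ i j x, x ∈ L.U i → F x ∈ L.U j → ∃ p : X → ℝ, (∀ᶠ y in 𝓝 x, ψ j (F y) = ψ i y + (p y : EReal)) ∧
        ∀ e : Chart d X, At e x → ∀ᶠ z in 𝓝 (e x), ContDiffAt ℝ ∞ (fun y => p (e.symm y)) z ∧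
          ddc p e z = 0 := by
  obtain ⟨v, hv, hve⟩ := hθ
  obtain ⟨u, hu, hue⟩ := hdd
  have hF := F.contMDiff
  -- the function `h₀`
  have hDD : FEq (DD F w) (fun e z => (c : ℂ) • curvature L ρ e z + ddc u e z) := hue
  have huF : Smooth (d := d) (fun y => u (F y)) := Smooth.comp hF hu
  set h₀ : X → ℝ := fun y => (c * v y + u (F y)) - u y with hh₀
  have hh₀s : Smooth (d := d) h₀ := ((hv.const_mul c).add huF).sub hu
  have hD₀ : FEq (pull F (DD F w)) (fun e z => DD F w e z + ddc h₀ e z) := by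
    intro e x hx
    rw [pull_congr F hDD e x hx, pull_add F (fun e z => (c : ℂ) • curvature L ρ e z) (ddc u),
      pull_smul]
    show (c : ℂ) • pull F (curvature L ρ) e (e x) + pull F (ddc u) e (e x) =
      DD F w e (e x) + ddc h₀ e (e x)
    rw [hve e x hx, hDD e x hx, ← ddc_comp hF hu e x hx, hh₀,
      ddc_sub ((hv.const_mul c).add huF) hu e x hx]
    show _ = _ + (ddc (fun y => c * v y + u (F y)) e (e x) - ddc u e (e x))
    rw [ddc_add (hv.const_mul c) huF e x hx]
    show _ = _ + (ddc (fun y => c * v y) e (e x) + ddc (fun y => u (F y)) e (e x) - ddc u e (e x))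
    rw [ddc_const_mul c hv e x hx]
    simp only [smul_add]
    abel
  obtain ⟨t, hup, hD, horb⟩ := exists_data F hs hh₀s hD₀
  set h : X → ℝ := fun y => h₀ y - t with hh
  have hhs : Smooth (d := d) h := hh₀s.sub (Smooth.const _)
  have D : Dat F w L ρ c u h := ⟨hs.kahler, hρ, hc, hu, hhs, hDD, hD, hup, horb⟩
  refine ⟨psi F ρ c u h, ⟨fun i e he => D.psh i he, fun i j x hi hj => ?_⟩,
    fun i e x hx hi => D.lelong_eq_zero i hx hi,
    fun m i e K hm he hK hKe => exp_int D hm i he hK hKe,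
    fun K hK hne hFK => ?_, fun i j x hi hj => ?_⟩
  · unfold psi
    rw [add_assoc, ← EReal.coe_add, hρ.change i j x hi hj]
    congr 2
    ring
  · obtain ⟨x, hx, hx'⟩ := exists_finite (F := F) (h := h) (c := c) hK.isCompact hne hFK hc horb
    obtain ⟨i, hi⟩ := L.cover x
    refine ⟨i, x, ⟨hx, hi⟩, fun hbot => ?_⟩
    unfold psi at hbot
    rw [EReal.add_eq_bot_iff] at hbot
    rcases hbot with hbot | hbot
    · rw [hbot] at hx'
      exact absurd hx' (not_le.2 (EReal.bot_lt_coe _))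
    · exact absurd hbot (EReal.coe_ne_bot _)
  · refine ⟨fun y => (ρ j (F y) + u (F y) / c) - (ρ i y + u y / c) - h y / c,
      Eventually.of_forall fun y => ?_, fun e hx => ?_⟩
    · unfold psi
      rw [D.comp_eq y, add_assoc, add_assoc, ← EReal.coe_add, ← EReal.coe_add]
      congr 2
      ring
    · have h1 : ∀ᶠ z in 𝓝 (e x), z ∈ e.target ∧ e.symm z ∈ L.U i ∧ F (e.symm z) ∈ L.U j := by
        have c1 : Tendsto e.symm (𝓝 (e x)) (𝓝 x) := by
          have := (e.continuousAt_symm hx.mem_target).tendsto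
          rwa [hx.left_inv] at this
        have c2 : Tendsto (fun z => F (e.symm z)) (𝓝 (e x)) (𝓝 (F x)) :=
          (F.continuous.tendsto x).comp c1
        filter_upwards [hx.nhds_target, c1.eventually ((L.isOpen i).mem_nhds hi),
          c2.eventually ((L.isOpen j).mem_nhds hj)] with z h1 h2 h3
        exact ⟨h1, h2, h3⟩
      filter_upwards [h1] with z hz
      have hAt : At e (e.symm z) := At.of_target hx.1 hz.1
      have := D.pluriharmonic hAt hz.2.1 hz.2.2
      rw [e.right_inv hz.1] at this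
      exact this

end Vale.Agent.P301.R2.H169
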